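import Vale.Agent.P281.H399.G1.Out
import Vale.Agent.P281.H615.HKT.FibC
import Vale.Agent.P281.H125.RC.ConnT

/-!
# P281, project T-HKT, class C (helper399): the fibres of `f ∘ u` (assembly)
-/

open Set Filter Metric Vale.Agent.P281 Vale.Agent.P281.H713 Vale.Agent.P272.K
open Vale.Agent.P281.H603.TE (sub core)
open Vale.Agent.P281.H399.QT (Qs One1 pj quo)
open scoped Topology ContDiff Manifold

noncomputable section

namespace Vale.Agent.P281.H399.G1

open Vale.Agent.P281.H64.TK Vale.Agent.P281.H64.TK.TS Vale.Agent.P281.H83.HK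
open Vale.Agent.P281.H83.HKT (NDegT GenU RatRad dF IsTH)
open Vale.Agent.P281.H64.TK.TE (IsSquareE)
open Vale.Agent.P281.H191.RC (PsiT)

attribute [local instance] H603.TE.ccs

/-- the output of (G2), first half -/
def GenPsi : Prop :=
  ∀ (a h : ℕ) (E K H : Type) [TopologicalSpace E] [T2Space E] [SimplyConnectedSpace E] [Group K]
    [MulAction K E] [ContinuousConstSMul K E] [TopologicalSpace H] [ChartedSpace (Cm h) H]
    [T2Space H] [CompactSpace H] [SimplyConnectedSpace H] [IsManifold 𝓘(ℂ, Cm h) ω H]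
    (S : Sheets (a + h) E K) (ψ : E → Cm a × H) (l : K → Cm a) (A : Set (Cm a × H)),
    PsiT (h := h) S ψ l A → 2 ≤ h → Sympl h H →
    (∃ C : Set (Cm a), IsCompact C ∧ ∀ z, ∃ k : K, z + l k ∈ C) →
    (∀ k, l k = 0 → k = 1) → (∀ R : ℝ, {k : K | ‖l k‖ ≤ R}.Finite) →
    ∃ s, GenU (quo S) (dF S fun e => (ψ e).1) s

/-- the output of (G2), second half -/
def BasPsi : Prop :=
  ∀ (a h : ℕ) (E K H : Type) [TopologicalSpace E] [T2Space E] [SimplyConnectedSpace E] [Group K]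
    [MulAction K E] [ContinuousConstSMul K E] [TopologicalSpace H] [ChartedSpace (Cm h) H]
    [T2Space H] [CompactSpace H] [SimplyConnectedSpace H] [IsManifold 𝓘(ℂ, Cm h) ω H]
    (S : Sheets (a + h) E K) (ψ : E → Cm a × H) (l : K → Cm a) (A : Set (Cm a × H)),
    PsiT (h := h) S ψ l A → 2 ≤ h → Sympl h H →
    (∃ C : Set (Cm a), IsCompact C ∧ ∀ z, ∃ k : K, z + l k ∈ C) →
    (∀ k, l k = 0 → k = 1) → (∀ R : ℝ, {k : K | ‖l k‖ ≤ R}.Finite) →
    IsBas S (fun e => (ψ e).1) l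

section
variable {p d : ℕ} {X Y X₁ : Type} [TopologicalSpace X] [T2Space X] [ChartedSpace (Cm (p + d)) X]
  [IsManifold 𝓘(ℂ, Cm (p + d)) ω X] [TopologicalSpace Y] [T2Space Y] [ChartedSpace (Cm p) Y]
  [IsManifold 𝓘(ℂ, Cm p) ω Y] [TopologicalSpace X₁] [T2Space X₁] [ChartedSpace (Cm (p + d)) X₁]
  [IsManifold 𝓘(ℂ, Cm (p + d)) ω X₁] {f : X → Y} {u : X₁ → X} {S : Set Y} {y : Y}
  {F : Type} [TopologicalSpace F] [T2Space F] [ChartedSpace (Cm d) F] {i : F → X}

/-- **FibT, class C** -/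
theorem fibTC_of (gen : GenPsi) (bas : BasPsi) (ab : ABStmt) (rad : H152.RC.RadCStmt)
    (hd : 0 < d)
    (hsq : IsSquareE (p + d) p d f (fun z => f (u z)) u (id : Y → Y) S S y y i)
    (hF : IsTH d F) :
    ∃ a m N, a + 2 ≤ d ∧ 0 < N ∧ NDegT p d a m N (fun z => f (u z)) y := by
  obtain ⟨a, h, H, tH, cH, g, rfl, h2, t2H, cpH, scH, mfH, sy, E, Γ, tE, t2, sc, gΓ, aΓ, cΓ, 𝓕, q,
    χ, t, ht, m, hfin, ψ, l, M, hy, hm, hψ, P, hC, zero, fin, mark⟩ := exists_psiZ hd hsq ab hF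
  have hN := H615.HKT.ndegT_of_rad rad h2 ht M mark
    (bas a h E (core Γ m) H _ ψ l _ P h2 sy hC zero fin) fin zero
    (gen a h E (core Γ m) H _ ψ l _ P h2 sy hC zero fin) (H125.RC.connTc fin P)
  rw [hy] at hN
  exact ⟨a, m, (core Γ m).index, by omega, Nat.pos_of_ne_zero hfin.index_ne_zero, hN⟩

end

end Vale.Agent.P281.H399.G1
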