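import Vale.Agent.P281.H615.NC.Geo
import Vale.Agent.P281.H842.HKT.Prod

/-!
# P281, project T-HKT, class C (helper399), G1: `ℂ^a × H` as a manifold of dimension `a + h`
-/

open Set Filter Metric Vale.Agent.P281 Vale.Agent.P281.H713 Vale.Agent.P272.K
open scoped Topology ContDiff Manifold

set_option linter.unusedSectionVars false

noncomputable section

namespace Vale.Agent.P281.H399.G1

open Vale.Agent.P281.H64.TK Vale.Agent.P281.H64.TK.TS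
open Vale.Agent.P281.H64.Gen (IsSmall2 excSet)
open Vale.Agent.P281.H842.HKT (p1 p2 ap pe p1_ap p2_ap ap_p)

section man
variable {a h : ℕ} {H : Type} [TopologicalSpace H]

/-- The chart of `ℂ^a × H` given by a chart of `H`. -/
def chV (a : ℕ) (c : Chart h H) : Chart (a + h) (Cm a × H) :=
  ((OpenPartialHomeomorph.refl (Cm a)).prod c).trans
    (pe a h).symm.toHomeomorph.toOpenPartialHomeomorph

theorem chV_apply (c : Chart h H) (v : Cm a × H) : chV a c v = ap v.1 (c v.2) := rfl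

theorem chV_symm (c : Chart h H) (w : Cm (a + h)) : (chV a c).symm w = (p1 w, c.symm (p2 w)) := rfl

theorem chV_source (c : Chart h H) (v : Cm a × H) : v ∈ (chV a c).source ↔ v.2 ∈ c.source := by
  unfold chV
  rw [OpenPartialHomeomorph.trans_source]
  simp

theorem chV_target (c : Chart h H) (w : Cm (a + h)) : w ∈ (chV a c).target ↔ p2 w ∈ c.target := by
  constructor
  · intro hw
    have h1 := (chV a c).map_target hw
    rw [chV_source, chV_symm] at h1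
    have h2 := c.map_source h1
    have h3 := (chV a c).right_inv hw
    rw [chV_symm, chV_apply] at h3
    have h4 := congrArg p2 h3
    rw [p2_ap] at h4
    rwa [← h4]
  · intro hw
    have h1 : (p1 w, c.symm (p2 w)) ∈ (chV a c).source := (chV_source c _).2 (c.map_target hw)
    have h2 := (chV a c).map_source h1
    rw [chV_apply, c.right_inv hw, ap_p] at h2
    exact h2

variable [ChartedSpace (Cm h) H]

/-- `ℂ^a × H` as a manifold of dimension `a + h`. -/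
@[instance_reducible]
def csV (a h : ℕ) (H : Type) [TopologicalSpace H] [ChartedSpace (Cm h) H] :
    ChartedSpace (Cm (a + h)) (Cm a × H) where
  atlas := {e | ∃ c ∈ atlas (Cm h) H, e = chV a c}
  chartAt v := chV a (chartAt (Cm h) v.2)
  mem_chart_source _ := (chV_source _ _).2 (mem_chart_source _ _)
  chart_mem_atlas _ := ⟨_, chart_mem_atlas _ _, rfl⟩

attribute [local instance] csV

theorem mem_atlasV {c : Chart h H} (hc : c ∈ atlas (Cm h) H) :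
    chV a c ∈ atlas (Cm (a + h)) (Cm a × H) := ⟨c, hc, rfl⟩

theorem of_atlasV {e : Chart (a + h) (Cm a × H)} (he : e ∈ atlas (Cm (a + h)) (Cm a × H)) :
    ∃ c ∈ atlas (Cm h) H, e = chV a c := he

variable [IsManifold 𝓘(ℂ, Cm h) ω H]

theorem mfV : IsManifold 𝓘(ℂ, Cm (a + h)) ω (Cm a × H) := by
  refine isManifold_of_contDiffOn 𝓘(ℂ, Cm (a + h)) ω (Cm a × H) ?_
  rintro _ _ ⟨c, hc, rfl⟩ ⟨c', hc', rfl⟩ w ⟨hw, -⟩
  have hw' : w ∈ ((chV a c).symm ≫ₕ chV a c').source := hw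
  rw [OpenPartialHomeomorph.trans_source] at hw'
  obtain ⟨h1, h2⟩ := hw'
  have h3 : p2 w ∈ c.target := (chV_target c w).1 h1
  have h4 : c.symm (p2 w) ∈ c'.source := by
    have h5 : (chV a c).symm w ∈ (chV a c').source := h2
    rw [chV_source] at h5
    exact h5
  have h5 := H615.NC.trans_an hc hc' (c.map_target h3) h4
  rw [c.right_inv h3] at h5
  have h6 : ContDiffAt ℂ ω (fun w : Cm (a + h) => (pe a h).symm (p1 w, c' (c.symm (p2 w)))) w := by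
    have h7 : ContDiffAt ℂ ω (fun w : Cm (a + h) => p1 w) w :=
      (contDiff_fst.comp (pe a h).contDiff).contDiffAt
    have h8 : ContDiffAt ℂ ω (fun w : Cm (a + h) => p2 w) w :=
      (contDiff_snd.comp (pe a h).contDiff).contDiffAt
    have h9 : ContDiffAt ℂ ω (fun w : Cm (a + h) => c' (c.symm (p2 w))) w :=
      ContDiffAt.comp (g := fun u => c' (c.symm u)) (f := fun w : Cm (a + h) => p2 w) w
        h5.contDiffAt h8
    exact (pe a h).symm.contDiff.contDiffAt.comp w (h7.prodMk h9)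
  exact h6.contDiffWithinAt

theorem fst_md : ContMDiff 𝓘(ℂ, Cm (a + h)) 𝓘(ℂ, Cm a) ω (Prod.fst : Cm a × H → Cm a) := by
  have i1 : IsManifold 𝓘(ℂ, Cm (a + h)) ω (Cm a × H) := mfV
  intro v
  set c := chartAt (Cm h) v.2 with hc
  have hca : c ∈ atlas (Cm h) H := chart_mem_atlas _ _
  have hs : v ∈ (chV a c).source := (chV_source _ _).2 (mem_chart_source _ _)
  have h1 := H615.NC.chart_md (mem_atlasV (a := a) hca) hs
  have h2 : ContMDiffAt 𝓘(ℂ, Cm (a + h)) 𝓘(ℂ, Cm a) ω (fun w : Cm (a + h) => p1 w)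
      (chV a c v) := (contDiff_fst.comp (pe a h).contDiff).contDiffAt.contMDiffAt
  refine (ContMDiffAt.comp (g := fun w : Cm (a + h) => p1 w) v h2 h1).congr_of_eventuallyEq ?_
  exact Eventually.of_forall fun v' => by
    show v'.1 = p1 (chV a c v')
    rw [chV_apply, p1_ap]

theorem snd_md : ContMDiff 𝓘(ℂ, Cm (a + h)) 𝓘(ℂ, Cm h) ω (Prod.snd : Cm a × H → H) := by
  have i1 : IsManifold 𝓘(ℂ, Cm (a + h)) ω (Cm a × H) := mfV
  intro v
  set c := chartAt (Cm h) v.2 with hc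
  have hca : c ∈ atlas (Cm h) H := chart_mem_atlas _ _
  have hs' : v.2 ∈ c.source := mem_chart_source _ _
  have hs : v ∈ (chV a c).source := (chV_source _ _).2 hs'
  have h1 := H615.NC.chart_md (mem_atlasV (a := a) hca) hs
  have h2 : ContMDiffAt 𝓘(ℂ, Cm (a + h)) 𝓘(ℂ, Cm h) ω (fun w : Cm (a + h) => p2 w)
      (chV a c v) := (contDiff_snd.comp (pe a h).contDiff).contDiffAt.contMDiffAt
  have h3 : ContMDiffAt 𝓘(ℂ, Cm (a + h)) 𝓘(ℂ, Cm h) ω (fun v' => p2 (chV a c v')) v :=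
    ContMDiffAt.comp (g := fun w : Cm (a + h) => p2 w) v h2 h1
  have h4 : p2 (chV a c v) = c v.2 := by rw [chV_apply, p2_ap]
  have h5 : ContMDiffAt 𝓘(ℂ, Cm h) 𝓘(ℂ, Cm h) ω c.symm (p2 (chV a c v)) := by
    rw [h4]
    exact H615.NC.symm_md hca (c.map_source hs')
  refine (ContMDiffAt.comp (g := c.symm) (f := fun v' => p2 (chV a c v')) v h5
    h3).congr_of_eventuallyEq ?_
  filter_upwards [(chV a c).open_source.mem_nhds hs] with v' hv'
  show v'.2 = c.symm (p2 (chV a c v'))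
  rw [chV_apply, p2_ap, c.left_inv ((chV_source _ _).1 hv')]

theorem id_md : ContMDiff (𝓘(ℂ, Cm a).prod 𝓘(ℂ, Cm h)) 𝓘(ℂ, Cm (a + h)) ω
    (fun v : Cm a × H => v) := by
  have i1 : IsManifold 𝓘(ℂ, Cm (a + h)) ω (Cm a × H) := mfV
  intro v
  set c := chartAt (Cm h) v.2 with hc
  have hca : c ∈ atlas (Cm h) H := chart_mem_atlas _ _
  have hs' : v.2 ∈ c.source := mem_chart_source _ _
  have hs : v ∈ (chV a c).source := (chV_source _ _).2 hs'
  have h1 : ContMDiffAt (𝓘(ℂ, Cm a).prod 𝓘(ℂ, Cm h)) 𝓘(ℂ, Cm h) ω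
      (fun v' : Cm a × H => c v'.2) v :=
    ContMDiffAt.comp (g := c) v (H615.NC.chart_md hca hs') contMDiffAt_snd
  have h2 : ContMDiffAt (𝓘(ℂ, Cm a).prod 𝓘(ℂ, Cm h)) 𝓘(ℂ, Cm a) ω
      (fun v' : Cm a × H => v'.1) v := contMDiffAt_fst
  have h3 : ContMDiffAt (𝓘(ℂ, Cm a).prod 𝓘(ℂ, Cm h)) 𝓘(ℂ, Cm a × Cm h) ω
      (fun v' : Cm a × H => (v'.1, c v'.2)) v := by
    rw [modelWithCornersSelf_prod, ← chartedSpaceSelf_prod]
    exact h2.prodMk h1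
  have h4 : ContMDiffAt (𝓘(ℂ, Cm a).prod 𝓘(ℂ, Cm h)) 𝓘(ℂ, Cm (a + h)) ω
      (fun v' : Cm a × H => (pe a h).symm (v'.1, c v'.2)) v :=
    ContMDiffAt.comp (g := (pe a h).symm) v
      (pe a h).symm.contDiff.contDiffAt.contMDiffAt h3
  have h5 : ContMDiffAt 𝓘(ℂ, Cm (a + h)) 𝓘(ℂ, Cm (a + h)) ω (chV a c).symm
      ((pe a h).symm (v.1, c v.2)) := by
    have h6 : (pe a h).symm (v.1, c v.2) = chV a c v := rfl
    rw [h6]
    exact H615.NC.symm_md (mem_atlasV hca) ((chV a c).map_source hs)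
  refine (ContMDiffAt.comp (g := (chV a c).symm)
    (f := fun v' : Cm a × H => (pe a h).symm (v'.1, c v'.2)) v h5 h4).congr_of_eventuallyEq ?_
  have h7 : ∀ᶠ v' : Cm a × H in 𝓝 v, v' ∈ (chV a c).source :=
    (chV a c).open_source.mem_nhds hs
  filter_upwards [h7] with v' hv'
  exact ((chV a c).left_inv hv').symm

/-- A map which is holomorphic for the product structure is holomorphic. -/
theorem md_of_prod {n : ℕ} {M : Type} [TopologicalSpace M] [ChartedSpace (Cm n) M]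
    {g : Cm a × H → M} {v : Cm a × H}
    (hg : ContMDiffAt (𝓘(ℂ, Cm a).prod 𝓘(ℂ, Cm h)) 𝓘(ℂ, Cm n) ω g v) :
    ContMDiffAt 𝓘(ℂ, Cm (a + h)) 𝓘(ℂ, Cm n) ω g v :=
  ContMDiffAt.comp (g := g) (f := fun v : Cm a × H => (v.1, v.2)) v hg
    ((fst_md v).prodMk (snd_md v))

theorem inj_of_prod {n : ℕ} {M : Type} [TopologicalSpace M] [ChartedSpace (Cm n) M]
    {g : Cm a × H → M} {v : Cm a × H}
    (hg : ContMDiffAt (𝓘(ℂ, Cm a).prod 𝓘(ℂ, Cm h)) 𝓘(ℂ, Cm n) ω g v)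
    (hi : Function.Injective (mfderiv (𝓘(ℂ, Cm a).prod 𝓘(ℂ, Cm h)) 𝓘(ℂ, Cm n) g v)) :
    Function.Injective (mfderiv 𝓘(ℂ, Cm (a + h)) 𝓘(ℂ, Cm n) g v) := by
  have k1 : MDifferentiableAt 𝓘(ℂ, Cm (a + h)) (𝓘(ℂ, Cm a).prod 𝓘(ℂ, Cm h))
      (fun v : Cm a × H => (v.1, v.2)) v :=
    (((fst_md (a := a) (h := h) (H := H) v).prodMk (snd_md v))).mdifferentiableAt (by simp)
  have k2 : MDifferentiableAt (𝓘(ℂ, Cm a).prod 𝓘(ℂ, Cm h)) 𝓘(ℂ, Cm (a + h))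
      (fun v : Cm a × H => v) ((fun v : Cm a × H => (v.1, v.2)) v) :=
    (id_md v).mdifferentiableAt (by simp)
  have k3 : HasMFDerivAt 𝓘(ℂ, Cm (a + h)) 𝓘(ℂ, Cm n) g v
      ((mfderiv (𝓘(ℂ, Cm a).prod 𝓘(ℂ, Cm h)) 𝓘(ℂ, Cm n) g v).comp
        (mfderiv 𝓘(ℂ, Cm (a + h)) (𝓘(ℂ, Cm a).prod 𝓘(ℂ, Cm h))
          (fun v : Cm a × H => (v.1, v.2)) v)) :=
    HasMFDerivAt.comp (g := g) (f := fun v : Cm a × H => (v.1, v.2)) v
      (hg.mdifferentiableAt (by simp)).hasMFDerivAt k1.hasMFDerivAt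
  have k4 : HasMFDerivAt 𝓘(ℂ, Cm (a + h)) 𝓘(ℂ, Cm (a + h)) (fun v : Cm a × H => v) v
      ((mfderiv (𝓘(ℂ, Cm a).prod 𝓘(ℂ, Cm h)) 𝓘(ℂ, Cm (a + h)) (fun v : Cm a × H => v) v).comp
        (mfderiv 𝓘(ℂ, Cm (a + h)) (𝓘(ℂ, Cm a).prod 𝓘(ℂ, Cm h))
          (fun v : Cm a × H => (v.1, v.2)) v)) :=
    HasMFDerivAt.comp (g := fun v : Cm a × H => v) (f := fun v : Cm a × H => (v.1, v.2)) v
      k2.hasMFDerivAt k1.hasMFDerivAt
  have k5 : HasMFDerivAt 𝓘(ℂ, Cm (a + h)) 𝓘(ℂ, Cm (a + h)) (fun v : Cm a × H => v) v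
      (ContinuousLinearMap.id ℂ (TangentSpace 𝓘(ℂ, Cm (a + h)) v)) := hasMFDerivAt_id v
  have k6 := hasMFDerivAt_unique k4 k5
  rw [k3.mfderiv]
  refine hi.comp ?_
  intro ξ ξ' hξ
  have e1 := congrArg (fun L : TangentSpace 𝓘(ℂ, Cm (a + h)) v →L[ℂ]
    TangentSpace 𝓘(ℂ, Cm (a + h)) v => L ξ) k6
  have e2 := congrArg (fun L : TangentSpace 𝓘(ℂ, Cm (a + h)) v →L[ℂ]
    TangentSpace 𝓘(ℂ, Cm (a + h)) v => L ξ') k6
  have e3 : ξ = (mfderiv (𝓘(ℂ, Cm a).prod 𝓘(ℂ, Cm h)) 𝓘(ℂ, Cm (a + h))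
      (fun v : Cm a × H => v) v) ((mfderiv 𝓘(ℂ, Cm (a + h)) (𝓘(ℂ, Cm a).prod 𝓘(ℂ, Cm h))
          (fun v : Cm a × H => (v.1, v.2)) v) ξ) := e1.symm
  have e4 : ξ' = (mfderiv (𝓘(ℂ, Cm a).prod 𝓘(ℂ, Cm h)) 𝓘(ℂ, Cm (a + h))
      (fun v : Cm a × H => v) v) ((mfderiv 𝓘(ℂ, Cm (a + h)) (𝓘(ℂ, Cm a).prod 𝓘(ℂ, Cm h))
          (fun v : Cm a × H => (v.1, v.2)) v) ξ') := e2.symm
  refine e3.trans (Eq.trans ?_ e4.symm)
  exact congrArg (fun ζ => (mfderiv (𝓘(ℂ, Cm a).prod 𝓘(ℂ, Cm h)) 𝓘(ℂ, Cm (a + h))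
    (fun v : Cm a × H => v) v) ζ) hξ

end man

end Vale.Agent.P281.H399.G1
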