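import Vale.Agent.P281.H399.G1.Psi
import Vale.Agent.P281.H83.HKT.Spec
import Vale.Agent.P281.H638.RC.Lat
import Vale.Agent.P281.H638.RC.Mark

/-!
# P281, project T-HKT, class C (helper399), G1: the output in the charts of `H` (`PsiT`)
-/

open Set Filter Metric Vale.Agent.P281 Vale.Agent.P281.H713 Vale.Agent.P272.K
open Vale.Agent.P281.H603.TE (sub core)
open scoped Topology ContDiff Manifold

set_option linter.unusedSectionVars false

noncomputable section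

namespace Vale.Agent.P281.H399.G1

open Vale.Agent.P281.H64.TK Vale.Agent.P281.H64.TK.TS Vale.Agent.P281.H22.TS
open Vale.Agent.P281.H603.K Vale.Agent.P281.H603.KodN Vale.Agent.P281.H125.Fib
open Vale.Agent.P281.H969.K.FibN Vale.Agent.P281.H603.TE
open Vale.Agent.P281.H64.Gen (IsSmall2 excSet)
open Vale.Agent.P281.H64.TK.TE (IsSquareE)
open Vale.Agent.P281.H615.NC (Psi)
open Vale.Agent.P281.H842.HKT (p1 p2 ap pe p1_ap p2_ap ap_p)
open Vale.Agent.P281.H834.HKT (GTH)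
open Vale.Agent.P281.H191.RC (Sml2 PsiT)

attribute [local instance] csV

section
variable {a h : ℕ} {E K H : Type} [TopologicalSpace E] [Group K] [MulAction K E]
  [TopologicalSpace H] [ChartedSpace (Cm h) H] [IsManifold 𝓘(ℂ, Cm h) ω H]

theorem pe_ch {c : Chart h H} (v : Cm a × H) : pe a h (chV a c v) = (v.1, c v.2) := by
  show ((p1 (ap v.1 (c v.2)), p2 (ap v.1 (c v.2))) : Cm a × Cm h) = _
  rw [p1_ap, p2_ap]

theorem sml_aux {n : ℕ} {V : Type} [TopologicalSpace V] [ChartedSpace (Cm n) V]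
    [IsManifold 𝓘(ℂ, Cm n) ω V] {e : Chart n V} (he : e ∈ atlas (Cm n) V) {w : Cm n}
    (hw : w ∈ e.target) {q : V} (hq : e.symm w = q) {G : Fin 2 → V → ℂ}
    (hG : ∀ i, J.HolAt (Cm n) (G i) q)
    (hs : Function.Surjective fun (ξ : Cm n) (i : Fin 2) => J.dif (Cm n) (G i) q ξ) :
    (∀ i, AnalyticAt ℂ (fun v => G i (e.symm v)) w) ∧
      Function.Surjective fun (η : Cm n) (i : Fin 2) =>
        fderiv ℂ (fun v => G i (e.symm v)) w η := by
  subst hq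
  have i2 : IsManifold 𝓘(ℂ, Cm n) 1 V := IsManifold.of_le (n := ω) le_top
  have hmd : ContMDiffAt 𝓘(ℂ, Cm n) 𝓘(ℂ, Cm n) ω e.symm w := H615.NC.symm_md he hw
  refine ⟨fun i => (contMDiffAt_iff_contDiffAt.1 (ContMDiffAt.comp w (g := G i)
    (f := e.symm) (hG i) hmd)).analyticAt, fun y => ?_⟩
  obtain ⟨ξ, hξ⟩ := hs y
  obtain ⟨η, hη⟩ := (mdifferentiable_of_mem_atlas (I := 𝓘(ℂ, Cm n)) he).symm.mfderiv_surjective
    hw ξ
  refine ⟨η, ?_⟩
  rw [← hξ]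
  funext i
  have h1 : HasMFDerivAt 𝓘(ℂ, Cm n) 𝓘(ℂ, ℂ) (fun v => G i (e.symm v)) w
      ((mfderiv 𝓘(ℂ, Cm n) 𝓘(ℂ, ℂ) (G i) (e.symm w)).comp
        (mfderiv 𝓘(ℂ, Cm n) 𝓘(ℂ, Cm n) e.symm w)) :=
    HasMFDerivAt.comp (g := G i) (f := e.symm) w
      ((hG i).mdifferentiableAt (by simp)).hasMFDerivAt
      (hmd.mdifferentiableAt (by simp)).hasMFDerivAt
  show fderiv ℂ (fun v => G i (e.symm v)) w η =
    mfderiv 𝓘(ℂ, Cm n) 𝓘(ℂ, ℂ) (G i) (e.symm w) ξ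
  rw [← mfderiv_eq_fderiv, h1.mfderiv, ← hη]
  rfl

/-- small sets, in the charts of `H` -/
theorem sml2_of {A : Set (Cm a × H)} (hA : IsSmall2 (Cm (a + h)) A) : Sml2 h A := by
  have i1 : IsManifold 𝓘(ℂ, Cm (a + h)) ω (Cm a × H) := mfV
  have i2 : IsManifold 𝓘(ℂ, Cm (a + h)) 1 (Cm a × H) := IsManifold.of_le (n := ω) le_top
  obtain ⟨hc, N, hN, hAN⟩ := hA
  refine ⟨hc, N, fun k => (hN k).1, hAN, fun k q hq e he hqe => ?_⟩
  obtain ⟨G, hG, hs, hev⟩ := (hN k).2 q hq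
  have hs1 : q ∈ (chV a e).source := (chV_source _ _).2 hqe
  have hwt : chV a e q ∈ (chV a e).target := (chV a e).map_source hs1
  have hq' : (chV a e).symm (chV a e q) = q := (chV a e).left_inv hs1
  obtain ⟨hB, hsur⟩ := sml_aux (mem_atlasV he) hwt hq' hG hs
  have hpe : (pe a h).symm (q.1, e q.2) = chV a e q := rfl
  refine ⟨fun i r => G i ((chV a e).symm ((pe a h).symm r)), fun i => ?_, ?_, ?_⟩
  · have h1 : AnalyticAt ℂ (fun v => G i ((chV a e).symm v)) ((pe a h).symm (q.1, e q.2)) := hB i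
    exact AnalyticAt.comp (g := fun v => G i ((chV a e).symm v)) h1
      (((pe a h).symm : Cm a × Cm h →L[ℂ] Cm (a + h)).analyticAt _)
  · intro y
    obtain ⟨η, hη⟩ := hsur y
    refine ⟨pe a h η, ?_⟩
    rw [← hη]
    funext i
    have h2 : HasFDerivAt (fun r => G i ((chV a e).symm ((pe a h).symm r)))
        ((fderiv ℂ (fun v => G i ((chV a e).symm v)) (chV a e q)).comp
          ((pe a h).symm : Cm a × Cm h →L[ℂ] Cm (a + h))) (q.1, e q.2) :=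
      HasFDerivAt.comp (g := fun v => G i ((chV a e).symm v)) (q.1, e q.2)
        (hB i).differentiableAt.hasFDerivAt
        ((pe a h).symm : Cm a × Cm h →L[ℂ] Cm (a + h)).hasFDerivAt
    show fderiv ℂ (fun r => G i ((chV a e).symm ((pe a h).symm r))) (q.1, e q.2) (pe a h η) =
      fderiv ℂ (fun v => G i ((chV a e).symm v)) (chV a e q) η
    rw [h2.fderiv]
    show fderiv ℂ (fun v => G i ((chV a e).symm v)) (chV a e q) ((pe a h).symm (pe a h η)) = _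
    rw [(pe a h).symm_apply_apply]
  · have h3 : Tendsto (fun r : Cm a × Cm h => (chV a e).symm ((pe a h).symm r))
        (𝓝 (q.1, e q.2)) (𝓝 q) := by
      have h4 : ContinuousAt (chV a e).symm ((pe a h).symm (q.1, e q.2)) :=
        (chV a e).continuousAt_symm hwt
      have h5 := h4.tendsto.comp ((pe a h).symm.continuous.continuousAt (x := (q.1, e q.2)))
      rw [hpe, hq'] at h5
      exact h5
    have hid : ∀ r : Cm a × Cm h, (chV a e).symm ((pe a h).symm r) = (r.1, e.symm r.2) := by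
      intro r
      show ((p1 (ap r.1 r.2), e.symm (p2 (ap r.1 r.2))) : Cm a × H) = _
      rw [p1_ap, p2_ap]
    filter_upwards [h3.eventually hev] with r h1 h2
    rw [← hid] at h2
    exact h1 h2

variable {S : Sheets (a + h) E K} {ψ : E → Cm a × H} {l : K → Cm a} {A : Set (Cm a × H)}

theorem inj_of_jac {n : ℕ} {g : Cm n → Cm n} {z : Cm n} (hdet : (H64.TK.jac g z).det ≠ 0) :
    Function.Injective (fderiv ℂ g z) := by
  have h1 : H64.TK.jac g z = LinearMap.toMatrix' (fderiv ℂ g z : Cm n →ₗ[ℂ] Cm n) := rfl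
  have h2 : IsUnit (LinearMap.det (fderiv ℂ g z : Cm n →ₗ[ℂ] Cm n)) := by
    rw [← LinearMap.det_toMatrix', ← h1]
    exact isUnit_iff_ne_zero.2 hdet
  exact (LinearEquiv.ofIsUnitDet (f := (fderiv ℂ g z : Cm n →ₗ[ℂ] Cm n))
    (v := Pi.basisFun ℂ (Fin n)) (v' := Pi.basisFun ℂ (Fin n)) (by
      rw [LinearMap.det_toMatrix]
      exact h2)).injective

/-- **from `Psi` to `PsiT`** -/
theorem psiT_of (P : Psi S ψ A) (act : ∀ (k : K) e, ψ (k • e) = ((ψ e).1 + l k, (ψ e).2))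
    (inv : ∀ k q, ((q.1 + l k, q.2) ∈ A ↔ q ∈ A)) : PsiT (h := h) S ψ l A := by
  refine ⟨P.cont, P.surj, act, inv, P.inj, fun j z hz c hc hs => ?_, fun j z hz c hc hs hA => ?_,
    sml2_of P.small, P.dense⟩
  · have h1 := P.hol j z hz _ (mem_atlasV (a := a) hc) ((chV_source c _).2 hs)
    have h2 : AnalyticAt ℂ (fun v => pe a h (chV a c (ψ (S.σ j v)))) z :=
      ((pe a h : Cm (a + h) →L[ℂ] Cm a × Cm h).analyticAt _).comp h1
    exact h2.congr (Eventually.of_forall fun v => pe_ch (c := c) (ψ (S.σ j v)))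
  · have h1 := P.hol j z hz _ (mem_atlasV (a := a) hc) ((chV_source c _).2 hs)
    have h2 := inj_of_jac (P.nd j z hz _ (mem_atlasV (a := a) hc) ((chV_source c _).2 hs) hA)
    have h3 : HasFDerivAt (fun v => ((ψ (S.σ j v)).1, c (ψ (S.σ j v)).2))
        ((pe a h : Cm (a + h) →L[ℂ] Cm a × Cm h).comp
          (fderiv ℂ (fun u => chV a c (ψ (S.σ j u))) z)) z := by
      have h4 := HasFDerivAt.comp (g := fun w => pe a h w) z
        ((pe a h : Cm (a + h) →L[ℂ] Cm a × Cm h).hasFDerivAt) h1.differentiableAt.hasFDerivAt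
      refine h4.congr_of_eventuallyEq (Eventually.of_forall fun v => ?_)
      exact (pe_ch (c := c) (ψ (S.σ j v))).symm
    rw [h3.fderiv]
    exact (pe a h).injective.comp h2

end

/-! ### The theorem, for `IsTH` -/

section
variable {p d : ℕ} {X Y X₁ : Type} [TopologicalSpace X] [T2Space X] [ChartedSpace (Cm (p + d)) X]
  [IsManifold 𝓘(ℂ, Cm (p + d)) ω X] [TopologicalSpace Y] [T2Space Y] [ChartedSpace (Cm p) Y]
  [IsManifold 𝓘(ℂ, Cm p) ω Y] [TopologicalSpace X₁] [T2Space X₁] [ChartedSpace (Cm (p + d)) X₁]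
  [IsManifold 𝓘(ℂ, Cm (p + d)) ω X₁] {f : X → Y} {u : X₁ → X} {S : Set Y} {y : Y}
  {F : Type} [TopologicalSpace F] [T2Space F] [ChartedSpace (Cm d) F] {i : F → X}

/-- **(G1)** -/
theorem exists_psiZ (hd : 0 < d)
    (hsq : IsSquareE (p + d) p d f (fun z => f (u z)) u (id : Y → Y) S S y y i)
    (hAB : ABStmt) (hF : H83.HKT.IsTH d F) :
    ∃ (a h : ℕ) (H : Type) (_ : TopologicalSpace H) (_ : ChartedSpace (Cm h) H)
      (g : Cm a × H → F), a + h = d ∧ 2 ≤ h ∧ T2Space H ∧ CompactSpace H ∧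
      SimplyConnectedSpace H ∧ IsManifold 𝓘(ℂ, Cm h) ω H ∧ H83.HK.Sympl h H ∧
      ∃ (E Γ : Type) (_ : TopologicalSpace E) (_ : T2Space E) (_ : SimplyConnectedSpace E)
      (_ : Group Γ) (_ : MulAction Γ E) (_ : ContinuousConstSMul Γ E) (𝓕 : Fam p d E Γ)
      (q : Cm p → E → X₁) (χ : OpenPartialHomeomorph Y (Cm p)) (t : Cm p) (ht : t ∈ 𝓕.T)
      (m : ℕ) (_ : (core Γ m).FiniteIndex) (ψ : E → Cm a × H) (l : core Γ m → Cm a),
      Model (n := p + d) (fun z => f (u z)) 𝓕 χ q ∧ χ.symm t = y ∧ 0 < m ∧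
        (∀ e, i (g (ψ e)) = u (q t e)) ∧
        PsiT (h := h) (sub (𝓕.at t ht) (core Γ m)) ψ l {v | i (g v) ∈ u '' excSet (Cm (p + d)) u} ∧
        (∃ C : Set (Cm a), IsCompact C ∧ ∀ z, ∃ k : core Γ m, z + l k ∈ C) ∧
        (∀ k, l k = 0 → k = 1) ∧ (∀ R : ℝ, {k : core Γ m | ‖l k‖ ≤ R}.Finite) ∧
        Nonempty (H64.Mark (core Γ m) (a + a)) := by
  obtain ⟨a, h, H, tH, cH, Λ, g, rfl, h2, t2H, cpH, scH, mfH, sy, gs, gh, ge⟩ := hF
  have G : GTH h (a + h) Λ g := ⟨gs, fun x => (gh x).1, fun x => (gh x).2, ge⟩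
  obtain ⟨E, Γ, tE, t2, sc, gΓ, aΓ, cΓ, 𝓕, q, χ, t, ht, m, hfin, ψ, l, M, hy, hm, hψ, P, act,
    hC, hΛ⟩ := exists_psiV hd hsq hAB G
  have hFm : IsManifold 𝓘(ℂ, Cm (a + h)) ω F := hsq.fibre.manifold
  obtain ⟨x₀⟩ : Nonempty H := inferInstance
  have hgc : IsCoveringMap g := H834.HKT.gcov G rfl
  have hdisc := H638.HKT.disc hgc ge x₀
  have hoff : ∃ e, ψ e ∉ (fun v => i (g v)) ⁻¹' (u '' excSet (Cm (p + (a + h))) u) := by
    obtain ⟨e₀⟩ : Nonempty E := inferInstance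
    obtain ⟨κ, j, z, hz, -⟩ := (sub (𝓕.at t ht) (core Γ m)).cover e₀
    obtain ⟨w, -, -, hw⟩ := P.dense j z (mem_ball_zero_iff.2 (by linarith)) univ univ_mem
    exact ⟨_, hw⟩
  have zero : ∀ k, l k = 0 → k = 1 := fun k hk => H638.RC.zero_of (K := core Γ m) act
    (fun k e he => H638.HKT.free_of_sheets (sub (𝓕.at t ht) (core Γ m)) he) P.inj hoff k hk
  have fin : ∀ R : ℝ, {k : core Γ m | ‖l k‖ ≤ R}.Finite :=
    H638.RC.fin_of_disc hdisc hΛ (H638.RC.inj_of (K := core Γ m) act zero)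
  refine ⟨a, h, H, tH, cH, g, rfl, h2, t2H, cpH, scH, mfH, sy, E, Γ, tE, t2, sc, gΓ, aΓ, cΓ, 𝓕, q,
    χ, t, ht, m, hfin, ψ, l, M, hy, hm, hψ, psiT_of P act fun k v => ?_, hC, zero, fin,
    H638.RC.mark_act (K := core Γ m) act zero fin hC⟩
  obtain ⟨e, rfl⟩ := P.surj v
  have h3 : i (g ((ψ e).1 + l k, (ψ e).2)) = i (g (ψ e)) := by
    have h4 : q t ((k : Γ) • e) = q t e :=
      (((qd_of_model M ht).Qeq _ _).2 ⟨(k : Γ), rfl⟩).symm
    rw [← act k e, hψ, hψ, h4]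
  show i (g ((ψ e).1 + l k, (ψ e).2)) ∈ u '' excSet (Cm (p + (a + h))) u ↔ _
  rw [h3]
  rfl

/-- **(G1)**, short form -/
theorem exists_psiT (hd : 0 < d)
    (hsq : IsSquareE (p + d) p d f (fun z => f (u z)) u (id : Y → Y) S S y y i)
    (hAB : ABStmt) (hF : H83.HKT.IsTH d F) :
    ∃ (a h : ℕ) (H : Type) (_ : TopologicalSpace H) (_ : ChartedSpace (Cm h) H)
      (g : Cm a × H → F), a + h = d ∧ 2 ≤ h ∧ T2Space H ∧ CompactSpace H ∧
      SimplyConnectedSpace H ∧ IsManifold 𝓘(ℂ, Cm h) ω H ∧ H83.HK.Sympl h H ∧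
      ∃ (E Γ : Type) (_ : TopologicalSpace E) (_ : T2Space E) (_ : SimplyConnectedSpace E)
      (_ : Group Γ) (_ : MulAction Γ E) (_ : ContinuousConstSMul Γ E) (𝓕 : Fam p d E Γ)
      (q : Cm p → E → X₁) (χ : OpenPartialHomeomorph Y (Cm p)) (t : Cm p) (ht : t ∈ 𝓕.T)
      (m : ℕ) (_ : (core Γ m).FiniteIndex) (ψ : E → Cm a × H) (l : core Γ m → Cm a),
      Model (n := p + d) (fun z => f (u z)) 𝓕 χ q ∧ χ.symm t = y ∧ 0 < m ∧
        (∀ e, i (g (ψ e)) = u (q t e)) ∧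
        PsiT (h := h) (sub (𝓕.at t ht) (core Γ m)) ψ l {v | i (g v) ∈ u '' excSet (Cm (p + d)) u} ∧
        (∃ C : Set (Cm a), IsCompact C ∧ ∀ z, ∃ k : core Γ m, z + l k ∈ C) := by
  obtain ⟨a, h, H, tH, cH, g, ha, h2, t2H, cpH, scH, mfH, sy, E, Γ, tE, t2, sc, gΓ, aΓ, cΓ, 𝓕, q,
    χ, t, ht, m, hfin, ψ, l, M, hy, hm, hψ, P, hC, -⟩ := exists_psiZ hd hsq hAB hF
  exact ⟨a, h, H, tH, cH, g, ha, h2, t2H, cpH, scH, mfH, sy, E, Γ, tE, t2, sc, gΓ, aΓ, cΓ, 𝓕, q,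
    χ, t, ht, m, hfin, ψ, l, M, hy, hm, hψ, P, hC⟩

end

end Vale.Agent.P281.H399.G1
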