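import Vale.Agent.P281.H399.G1.Man
import Vale.Agent.P281.H603.TE.Core
import Vale.Agent.P281.H834.HKT.Cv1
import Vale.Agent.P281.H834.HKT.Cv2
import Vale.Agent.P281.H638.HKT.A2
import Vale.Agent.P281.H191.RC.PsiT

/-!
# P281, project T-HKT, class C (helper399), G1: the map from the universal covering `E` of the fibre of
`f ∘ u` to `ℂ^a × H`
-/

open Set Filter Metric Vale.Agent.P281 Vale.Agent.P281.H713 Vale.Agent.P272.K
open Vale.Agent.P281.H603.TE (sub idx rep core)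
open scoped Topology ContDiff Manifold

set_option linter.unusedSectionVars false

noncomputable section

namespace Vale.Agent.P281.H399.G1

open Vale.Agent.P281.H64.TK Vale.Agent.P281.H64.TK.TS Vale.Agent.P281.H22.TS
open Vale.Agent.P281.H125.Fib Vale.Agent.P281.H969.K.FibN Vale.Agent.P281.H603.TE
open Vale.Agent.P281.H603.K Vale.Agent.P281.H603.KodN
open Vale.Agent.P281.H64.Gen (IsSmall2 excSet)
open Vale.Agent.P281.H64.TK.TE (IsSquareE)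
open Vale.Agent.P281.H615.NC (Psi P0 homT totF Md_restr locEq_exc LocEq.dense LocEq.preconn)
open Vale.Agent.P281.H834.HKT (GTH gcov exists_tau sc_prod)

attribute [local instance] ccs' csV

/-! ### Small sets -/

theorem small_pre {n : ℕ} {V F : Type} [TopologicalSpace V] [ChartedSpace (Cm n) V]
    [TopologicalSpace F] [ChartedSpace (Cm n) F] {g : V → F}
    (hg : ContMDiff 𝓘(ℂ, Cm n) 𝓘(ℂ, Cm n) ω g)
    (hi : ∀ x, Function.Injective (mfderiv 𝓘(ℂ, Cm n) 𝓘(ℂ, Cm n) g x)) {B : Set F}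
    (hB : IsSmall2 (Cm n) B) : IsSmall2 (Cm n) (g ⁻¹' B) := by
  obtain ⟨hc, H, hH, hN⟩ := hB
  refine ⟨hc.preimage hg.continuous, fun k => g ⁻¹' H k,
    fun k => ⟨(hH k).1.preimage hg.continuous, fun x hx => ?_⟩, fun x hx => ?_⟩
  · obtain ⟨G, hG, hs, he⟩ := (hH k).2 (g x) hx
    refine ⟨fun a v => G a (g v), fun a => ContMDiffAt.comp x (hG a) (hg x), ?_,
      hg.continuous.continuousAt.eventually he⟩
    intro y
    obtain ⟨ξ, hξ⟩ := hs y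
    have hsur : Function.Surjective (mfderiv 𝓘(ℂ, Cm n) 𝓘(ℂ, Cm n) g x) := by
      let M : Cm n →L[ℂ] Cm n := mfderiv 𝓘(ℂ, Cm n) 𝓘(ℂ, Cm n) g x
      have h1 : Function.Injective M.toLinearMap := hi x
      have h2 : Function.Surjective M.toLinearMap := LinearMap.injective_iff_surjective.1 h1
      exact h2
    obtain ⟨η, hη⟩ := hsur ξ
    refine ⟨η, ?_⟩
    rw [← hξ]
    funext a
    have h1 : HasMFDerivAt 𝓘(ℂ, Cm n) 𝓘(ℂ, ℂ) (fun v => G a (g v)) x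
        ((mfderiv 𝓘(ℂ, Cm n) 𝓘(ℂ, ℂ) (G a) (g x)).comp
          (mfderiv 𝓘(ℂ, Cm n) 𝓘(ℂ, Cm n) g x)) :=
      HasMFDerivAt.comp (g := G a) x
        ((hG a).mdifferentiableAt (by simp)).hasMFDerivAt
        ((hg x).mdifferentiableAt (by simp)).hasMFDerivAt
    show mfderiv 𝓘(ℂ, Cm n) 𝓘(ℂ, ℂ) (fun v => G a (g v)) x η =
      mfderiv 𝓘(ℂ, Cm n) 𝓘(ℂ, ℂ) (G a) (g x) ξ
    rw [h1.mfderiv, ← hη]
    rfl
  · obtain ⟨k, hk⟩ := mem_iUnion.1 (hN hx)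
    exact mem_iUnion.2 ⟨k, hk⟩

section
variable {a h n : ℕ} {F H X : Type} [TopologicalSpace H] [ChartedSpace (Cm h) H]
  [TopologicalSpace F] [ChartedSpace (Cm (a + h)) F] [IsManifold 𝓘(ℂ, Cm h) ω H]
  [TopologicalSpace X] [ChartedSpace (Cm n) X] {Λ : AddSubgroup (Cm a)} {g : Cm a × H → F}
  {i : F → X}

theorem g_md (G : GTH h (a + h) Λ g) :
    ContMDiff 𝓘(ℂ, Cm (a + h)) 𝓘(ℂ, Cm (a + h)) ω g := fun v => md_of_prod (G.hol v)

theorem g_imm (G : GTH h (a + h) Λ g) (v : Cm a × H) :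
    Function.Injective (mfderiv 𝓘(ℂ, Cm (a + h)) 𝓘(ℂ, Cm (a + h)) g v) :=
  inj_of_prod (G.hol v) (G.imm v)

theorem gi_md (G : GTH h (a + h) Λ g) (ihol : ContMDiff 𝓘(ℂ, Cm (a + h)) 𝓘(ℂ, Cm n) ω i) :
    ContMDiff 𝓘(ℂ, Cm (a + h)) 𝓘(ℂ, Cm n) ω fun v : Cm a × H => i (g v) :=
  fun v => ContMDiffAt.comp v (ihol _) (g_md G v)

theorem gi_imm (G : GTH h (a + h) Λ g) (ihol : ContMDiff 𝓘(ℂ, Cm (a + h)) 𝓘(ℂ, Cm n) ω i)
    (imm : ∀ x, Function.Injective (mfderiv 𝓘(ℂ, Cm (a + h)) 𝓘(ℂ, Cm n) i x)) (v : Cm a × H) :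
    Function.Injective (mfderiv 𝓘(ℂ, Cm (a + h)) 𝓘(ℂ, Cm n) (fun v : Cm a × H => i (g v)) v) := by
  have h1 : HasMFDerivAt 𝓘(ℂ, Cm (a + h)) 𝓘(ℂ, Cm n) (fun v : Cm a × H => i (g v)) v
      ((mfderiv 𝓘(ℂ, Cm (a + h)) 𝓘(ℂ, Cm n) i (g v)).comp
        (mfderiv 𝓘(ℂ, Cm (a + h)) 𝓘(ℂ, Cm (a + h)) g v)) :=
    HasMFDerivAt.comp (g := i) v
      ((ihol _).mdifferentiableAt (by simp)).hasMFDerivAt
      ((g_md G v).mdifferentiableAt (by simp)).hasMFDerivAt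
  rw [h1.mfderiv]
  exact (imm _).comp (g_imm G v)

end

/-! ### The model of `f` -/

section
variable {p a h : ℕ} {Z Y : Type} [TopologicalSpace Z] [T2Space Z]
  [ChartedSpace (Cm (p + (a + h))) Z]
  [IsManifold 𝓘(ℂ, Cm (p + (a + h))) ω Z] [TopologicalSpace Y] [T2Space Y] [ChartedSpace (Cm p) Y]
  [IsManifold 𝓘(ℂ, Cm p) ω Y]

theorem exists_model (hd : 0 < a + h) {f : Z → Y} {S : Set Y}
    (hf : ContMDiff 𝓘(ℂ, Cm (p + (a + h))) 𝓘(ℂ, Cm p) ω f)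
    (hP : H64.IsProperFibration (n := p + (a + h)) (p := p) f S) (hAB : ABStmt) {y : Y}
    (hy : y ∉ S) {F H : Type} [TopologicalSpace F] [T2Space F] [ChartedSpace (Cm (a + h)) F]
    [TopologicalSpace H] [SimplyConnectedSpace H] [ChartedSpace (Cm h) H]
    [IsManifold 𝓘(ℂ, Cm h) ω H] {Λ : AddSubgroup (Cm a)} {g : Cm a × H → F}
    {i : F → Z} (hI : H511.Surf.IsFibre (Cm (p + (a + h))) (Cm (a + h)) f y i)
    (G : GTH h (a + h) Λ g) :
    ∃ (E Γ : Type) (_ : TopologicalSpace E) (_ : T2Space E) (_ : SimplyConnectedSpace E)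
      (_ : Group Γ) (_ : MulAction Γ E) (_ : ContinuousConstSMul Γ E) (𝓕 : Fam p (a + h) E Γ)
      (q : Cm p → E → Z) (χ : OpenPartialHomeomorph Y (Cm p)) (t : Cm p) (_ : t ∈ 𝓕.T),
      Model (n := p + (a + h)) f 𝓕 χ q ∧ χ.symm t = y ∧
        ∃ τ : E ≃ₜ Cm a × H, (∀ e, i (g (τ e)) = q t e) ∧ ∃ m, 0 < m ∧
          ∃ l : core Γ m → Cm a, (∀ (k : core Γ m) e, τ ((k : Γ) • e) = ((τ e).1 + l k, (τ e).2)) ∧
            (∃ C : Set (Cm a), IsCompact C ∧ ∀ z, ∃ k : core Γ m, z + l k ∈ C) ∧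
            ∀ k, l k ∈ Λ := by
  obtain ⟨E, Γ, tE, t2, sc, gΓ, aΓ, cΓ, 𝓕, q, M, ht, -⟩ := hAB p (a + h) Z Y f S hd hf hP y hy
  have hyy : (chartAt (Cm p) y).symm (chartAt (Cm p) y y) = y :=
    (chartAt (Cm p) y).left_inv (mem_chart_source _ y)
  have hqd := qd_of_model M ht
  have hFc : CompactSpace F := hI.compact
  have hFm : IsManifold 𝓘(ℂ, Cm (a + h)) ω F := hI.manifold
  set Q := q (chartAt (Cm p) y y) with hQ
  have hri : range Q = f ⁻¹' {y} := by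
    rw [hQ, range_of_model M ht, hyy]
  have hib : ∀ x, i x ∈ f ⁻¹' {y} := fun x => hI.fibre x
  have hQb : ∀ e, Q e ∈ f ⁻¹' {y} := fun e => by
    rw [← hri]
    exact ⟨e, rfl⟩
  have hcov : IsCoveringMap fun x : F => (⟨i x, hib x⟩ : f ⁻¹' {y}) :=
    isCovering hqd hI.hol hI.immersion hri hib
  have hfb : ∀ e, Q e ∈ f ⁻¹' {(chartAt (Cm p) y).symm (chartAt (Cm p) y y)} := M.fib _ ht
  have hcovE : IsCoveringMap fun e : E => (⟨Q e, hQb e⟩ : f ⁻¹' {y}) :=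
    cov_congr (A := f ⁻¹' {(chartAt (Cm p) y).symm (chartAt (Cm p) y y)}) (by rw [hyy]) hfb hQb
      (M.cov _ ht)
  have hLE : LocallyPathConnectedSpace E := locPath (𝓕.at _ ht)
  have hLH : LocallyPathConnectedSpace H := ChartedSpace.locallyPathConnectedSpace (Cm h) H
  have hgc : IsCoveringMap g := gcov G rfl
  have hsc : SimplyConnectedSpace (Cm a × H) := sc_prod
  obtain ⟨v₀⟩ : Nonempty (Cm a × H) := inferInstance
  have hx₀ : i (g v₀) ∈ range Q := by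
    rw [hri]
    exact hib _
  obtain ⟨e₀, he₀⟩ := hx₀
  obtain ⟨τ, hτ⟩ := exists_tau hcovE hcov hgc (e₀ := e₀) (v₀ := v₀) (Subtype.ext he₀.symm)
  have hτ' : ∀ e, i (g (τ e)) = Q e := fun e => congrArg Subtype.val (hτ e)
  have hfin := H638.HKT.fin_fib hcov (⟨Q e₀, hQb e₀⟩ : f ⁻¹' {y})
  set m := ((fun x : F => (⟨i x, hib x⟩ : f ⁻¹' {y})) ⁻¹' {⟨Q e₀, hQb e₀⟩}).ncard with hm
  have hm0 : 0 < m := by
    rw [hm, Set.ncard_pos hfin]
    exact ⟨g (τ e₀), hτ e₀⟩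
  have hci : (core Γ m).FiniteIndex := coreS (a + h) m E Γ (𝓕.at _ ht) hd
  obtain ⟨l, hl, hC, -⟩ := H638.HKT.a2 (m := m) (𝓕.at _ ht) hcovE hcov hgc G.surj G.eq
    (fun e e' => by
      rw [Subtype.mk.injEq]
      exact hqd.Qeq e e') τ hτ e₀ hfin hm.ge
  refine ⟨E, Γ, tE, t2, sc, gΓ, aΓ, cΓ, 𝓕, q, chartAt (Cm p) y, _, ht, M, hyy, τ, hτ', m, hm0, l,
    hl, hC, fun k => ?_⟩
  have hinv : g (τ ((k : Γ) • e₀)) = g (τ e₀) :=
    Lifts.inv_core (Γ := Γ) (w := fun e : E => (⟨Q e, hQb e⟩ : f ⁻¹' {y})) hcov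
      (fun γ e => Subtype.ext ((hqd.Qeq _ _).2 ⟨γ, rfl⟩).symm) e₀ hfin hm.ge
      ⟨⟨fun e => g (τ e), hgc.continuous.comp τ.continuous⟩, hτ⟩ k.2 e₀
  have h5 := ((G.eq _ _).1 hinv.symm).1
  rw [hl k e₀] at h5
  simpa using h5

end

/-! ### The map -/

section
variable {p a h : ℕ} {X Y X₁ : Type} [TopologicalSpace X] [T2Space X]
  [ChartedSpace (Cm (p + (a + h))) X] [IsManifold 𝓘(ℂ, Cm (p + (a + h))) ω X]
  [TopologicalSpace Y] [T2Space Y] [ChartedSpace (Cm p) Y]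
  [IsManifold 𝓘(ℂ, Cm p) ω Y] [TopologicalSpace X₁] [T2Space X₁]
  [ChartedSpace (Cm (p + (a + h))) X₁]
  [IsManifold 𝓘(ℂ, Cm (p + (a + h))) ω X₁] {f : X → Y} {u : X₁ → X} {S : Set Y} {y : Y}
  {F H : Type} [TopologicalSpace F] [T2Space F] [ChartedSpace (Cm (a + h)) F]
  [TopologicalSpace H] [T2Space H] [SimplyConnectedSpace H] [ChartedSpace (Cm h) H]
  [IsManifold 𝓘(ℂ, Cm h) ω H] {Λ : AddSubgroup (Cm a)} {g : Cm a × H → F}
  {i : F → X}

/-- **(G1)** A model of `f ∘ u`, with the map `ψ` from its universal covering to `ℂ^a × H`. -/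
theorem exists_psiV (hd : 0 < a + h)
    (hsq : IsSquareE (p + (a + h)) p (a + h) f (fun z => f (u z)) u (id : Y → Y) S S y y i)
    (hAB : ABStmt) (G : GTH h (a + h) Λ g) :
    ∃ (E Γ : Type) (_ : TopologicalSpace E) (_ : T2Space E) (_ : SimplyConnectedSpace E)
      (_ : Group Γ) (_ : MulAction Γ E) (_ : ContinuousConstSMul Γ E) (𝓕 : Fam p (a + h) E Γ)
      (q : Cm p → E → X₁) (χ : OpenPartialHomeomorph Y (Cm p)) (t : Cm p) (ht : t ∈ 𝓕.T)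
      (m : ℕ) (_ : (core Γ m).FiniteIndex) (ψ : E → Cm a × H) (l : core Γ m → Cm a),
      Model (n := p + (a + h)) (fun z => f (u z)) 𝓕 χ q ∧ χ.symm t = y ∧ 0 < m ∧
        (∀ e, i (g (ψ e)) = u (q t e)) ∧
        Psi (sub (𝓕.at t ht) (core Γ m)) ψ
          ((fun v => i (g v)) ⁻¹' (u '' excSet (Cm (p + (a + h))) u)) ∧
        (∀ (k : core Γ m) e, ψ ((k : Γ) • e) = ((ψ e).1 + l k, (ψ e).2)) ∧
        (∃ C : Set (Cm a), IsCompact C ∧ ∀ z, ∃ k : core Γ m, z + l k ∈ C) ∧ ∀ k, l k ∈ Λ := by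
  obtain ⟨E₀, Γ₀, tE₀, t2₀, sc₀, gΓ₀, aΓ₀, cΓ₀, 𝓕₀, q₀, χ₀, t₀, ht₀, M₀, hy₀, τ, hτ, m, hm0, l₀,
    hl₀, hC₀, hΛ₀⟩ := exists_model hd hsq.hol hsq.proper hAB hsq.out hsq.fibre G
  obtain ⟨E, Γ, tE, t2, sc, gΓ, aΓ, cΓ, 𝓕, q, M, ht, -⟩ :=
    hAB p (a + h) X₁ Y (fun z => f (u z)) S hd hsq.hol₁ hsq.proper₁ y hsq.out₁
  have hyy : (chartAt (Cm p) y).symm (chartAt (Cm p) y y) = y :=
    (chartAt (Cm p) y).left_inv (mem_chart_source _ y)
  have hFm : IsManifold 𝓘(ℂ, Cm (a + h)) ω F := hsq.fibre.manifold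
  have hVm : IsManifold 𝓘(ℂ, Cm (a + h)) ω (Cm a × H) := mfV
  have hsc : SimplyConnectedSpace (Cm a × H) := sc_prod
  have hqd₀ := qd_of_model M₀ ht₀
  have hqd := qd_of_model M ht
  set Q₀ := q₀ t₀ with hQ₀
  set Q := q (chartAt (Cm p) y y) with hQ
  set W : Set X := f ⁻¹' {y} with hW
  have hr₀ : range Q₀ = W := by rw [hQ₀, range_of_model M₀ ht₀, hy₀]
  have hr : range Q = u ⁻¹' W := by
    rw [hQ, range_of_model M ht, hyy]
    rfl
  have hQ₀W : ∀ e, Q₀ e ∈ W := fun e => by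
    rw [← hr₀]
    exact ⟨e, rfl⟩
  have hQW : ∀ e, Q e ∈ u ⁻¹' W := fun e => by
    rw [← hr]
    exact ⟨e, rfl⟩
  have hm : Mod0 (n := p + (a + h)) u := mod0 hsq.modif
  have hcu : ContMDiff 𝓘(ℂ, Cm (p + (a + h))) 𝓘(ℂ, Cm (p + (a + h))) ω u := hsq.modif.2.1
  have md := Md_restr (H603.C.Md.of hm) W
  have T₀ := totF hqd₀ hr₀ hQ₀W
  have T₁ : H603.C.TotCov (P := P0) Γ (univ : Set P0)
      ((fun z : ↥(u ⁻¹' W) => (⟨u z, z.2⟩ : ↥W)) ⁻¹' (univ : Set ↥W))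
      (fun z : ↥(u ⁻¹' W) => (fun _ : ↥W => (0 : P0)) ⟨u z, z.2⟩)
      fun _ e => (⟨Q e, hQW e⟩ : ↥(u ⁻¹' W)) := totF hqd hr hQW
  have i1 : SimplyConnectedSpace (H603.C.Tot (univ : Set P0) E₀) :=
    H603.C.simply convex_univ univ_nonempty
  have i2 : SimplyConnectedSpace (H603.C.Tot (univ : Set P0) E) :=
    H603.C.simply convex_univ univ_nonempty
  have i3 : LocallyPathConnectedSpace E := locPath (𝓕.at _ ht)
  obtain ⟨L, hL⟩ := H603.C.exists_L T₀ T₁ md convex_univ isOpen_univ univ_nonempty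
  obtain ⟨ρ, hρ⟩ := hL.hom T₀ T₁
  -- the small set
  set A : Set (Cm a × H) := (fun v => i (g v)) ⁻¹' (u '' excSet (Cm (p + (a + h))) u) with hA
  have hAs : IsSmall2 (Cm (a + h)) A := small_pre (g_md G) (g_imm G) hsq.small
  have hAd : Dense Aᶜ := H383.Gen.dense_compl_small (H308.Bir.small_of_small2 hAs)
  have hτA : ∀ e, Q₀ e ∈ u '' excSet (Cm (p + (a + h))) u ↔ τ e ∈ A := fun e => by
    show _ ↔ i (g (τ e)) ∈ u '' excSet (Cm (p + (a + h))) u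
    rw [hτ]
  -- a point off the exceptional set
  have hne : ∃ e, Q e ∉ excSet (Cm (p + (a + h))) u := by
    obtain ⟨x₀⟩ : Nonempty (Cm a × H) := inferInstance
    obtain ⟨x, hx⟩ := hAd.nonempty_iff.2 ⟨x₀⟩
    obtain ⟨z, hz⟩ := hm.surj (i (g x))
    have hzW : z ∈ u ⁻¹' W := by
      show f (u z) = y
      rw [hz]
      exact hsq.fibre.fibre _
    rw [← hr] at hzW
    obtain ⟨e, rfl⟩ := hzW
    exact ⟨e, fun hcon => hx ⟨Q e, hcon, hz⟩⟩
  -- charts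
  have hch : ∀ z : H603.C.Tot (univ : Set P0) E₀, ∃ φ : OpenPartialHomeomorph
      (H603.C.Tot (univ : Set P0) E₀) (Fin (a + h) → ℂ), z ∈ φ.source ∧
      H603.C.Thin2 (φ.target ∩ φ.symm ⁻¹' {y : H603.C.Tot (univ : Set P0) E₀ |
        (⟨Q₀ y.2, hQ₀W y.2⟩ : ↥W) ∈
          (Subtype.val ⁻¹' (u '' excSet (Cm (p + (a + h))) u) : Set ↥W)}) φ.target := by
    intro z
    set c := chartAt (Cm (a + h)) (τ z.2) with hc
    set hom : H603.C.Tot (univ : Set P0) E₀ ≃ₜ Cm a × H := (homT E₀).trans τ with hhom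
    have hsrc : z ∈ (hom.toOpenPartialHomeomorph.trans c).source := by
      rw [OpenPartialHomeomorph.trans_source]
      have h0 : τ z.2 ∈ (chartAt (Cm (a + h)) (τ z.2)).source := mem_chart_source _ _
      exact ⟨mem_univ _, h0⟩
    refine ⟨hom.toOpenPartialHomeomorph.trans c, hsrc, ?_⟩
    have htgt : (hom.toOpenPartialHomeomorph.trans c).target = c.target := by
      rw [OpenPartialHomeomorph.trans_target]
      exact inter_eq_left.2 fun _ _ => mem_univ _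
    rw [htgt]
    have h1 := H603.C.thin2_chart hAs (τ z.2) c.open_target (subset_refl _)
    convert h1 using 1
    ext v
    refine and_congr_right fun _ => ?_
    show Q₀ (τ.symm (c.symm v)) ∈ u '' excSet (Cm (p + (a + h))) u ↔ c.symm v ∈ A
    rw [hτA, τ.apply_symm_apply]
  have hpre : IsPreconnected {y : H603.C.Tot (univ : Set P0) E₀ |
      (⟨Q₀ y.2, hQ₀W y.2⟩ : ↥W) ∉
        (Subtype.val ⁻¹' (u '' excSet (Cm (p + (a + h))) u) : Set ↥W)} := by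
    have h1 : IsPreconnected Aᶜ :=
      (H383.Gen.compl (a + h) (Cm a × H) A (H308.Bir.small_of_small2 hAs)).2
    have h2 := ((homT E₀).trans τ).isPreconnected_preimage.2 h1
    convert h2 using 1
    ext y
    show ¬ (Q₀ y.2 ∈ u '' excSet (Cm (p + (a + h))) u) ↔ ¬ (τ y.2 ∈ A)
    rw [hτA]
  have hpre₁ : IsPreconnected {x : H603.C.Tot (univ : Set P0) E |
      (⟨Q x.2, hQW x.2⟩ : ↥(u ⁻¹' W)) ∉
        (Subtype.val ⁻¹' excSet (Cm (p + (a + h))) u : Set ↥(u ⁻¹' W))} := by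
    have h1 := (locEq_exc hqd hcu).preconn (hm.eclosed.preimage hqd.Qcont) hne
    exact (homT E).isPreconnected_preimage.2 h1
  obtain ⟨e₁, he₁⟩ := hne
  obtain ⟨hbij, hs, hinj⟩ := hL.bij (H83.Sheet.covInj_of H495.C.sec) (n := a + h) T₀ T₁ md hρ hch
    hpre hpre₁ ⟨(homT E).symm e₁, he₁⟩
  have hfin : (core Γ m).FiniteIndex := coreS (a + h) m E Γ (𝓕.at _ ht) hd
  have hcore : ∀ k ∈ core Γ m, ρ k ∈ core Γ₀ m := by
    intro k hk
    have h3 : ∀ φ : Γ →* Equiv.Perm (Fin m), k ∈ φ.ker := Subgroup.mem_iInf.1 hk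
    exact Subgroup.mem_iInf.2 fun φ => h3 (φ.comp ρ)
  -- the map
  have hval : ∀ e, Q₀ (L ((homT E).symm e)).2 = u (Q e) := fun e =>
    congrArg Subtype.val (hL.eq ((homT E).symm e))
  have hψ : ∀ e, i (g (τ (L ((homT E).symm e)).2)) = u (Q e) := fun e => by
    rw [hτ]
    exact hval e
  refine ⟨E, Γ, tE, t2, sc, gΓ, aΓ, cΓ, 𝓕, q, chartAt (Cm p) y, _, ht, m, hfin,
    fun e => τ (L ((homT E).symm e)).2, fun k => l₀ ⟨ρ k, hcore k k.2⟩, M, hyy, hm0, hψ, ?_,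
    fun k e => ?_, ?_, fun k => hΛ₀ _⟩
  · refine H615.NC.psi_of (F := Cm a × H) (i := fun v => i (g v)) hqd hm hcu
      (gi_md G hsq.fibre.hol) (gi_imm G hsq.fibre.hol hsq.fibre.immersion) ?_ hψ ?_ ?_ hAs
      ⟨e₁, he₁⟩ (core Γ m)
    · exact τ.continuous.comp ((homT E₀).continuous.comp (hL.cont.comp (homT E).symm.continuous))
    · intro x
      obtain ⟨e, he⟩ := hs ((homT E₀).symm (τ.symm x))
      refine ⟨homT E e, ?_⟩
      show τ (L ((homT E).symm (homT E e))).2 = x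
      rw [(homT E).symm_apply_apply, he]
      exact τ.apply_symm_apply x
    · intro e e' he hQe
      have h1 : (L ((homT E).symm e)).2 = (L ((homT E).symm e')).2 := τ.injective he
      have h2 : L ((homT E).symm e) = L ((homT E).symm e') :=
        Prod.ext (Subtype.ext (Subsingleton.elim _ _)) h1
      exact (homT E).symm.injective (hinj _ _ h2 hQe)
  · have h1 : (homT E).symm ((k : Γ) • e) = (k : Γ) • (homT E).symm e := rfl
    have h2 : (L ((homT E).symm ((k : Γ) • e))).2 = ρ k • (L ((homT E).symm e)).2 := by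
      rw [h1, hρ]
      rfl
    show τ (L ((homT E).symm ((k : Γ) • e))).2 = _
    rw [h2]
    exact hl₀ ⟨ρ k, hcore k k.2⟩ _
  · obtain ⟨C, hC, hz⟩ := hC₀
    refine ⟨C, hC, fun z => ?_⟩
    obtain ⟨k, hk⟩ := hz z
    obtain ⟨k', hk'⟩ := hbij.2 (k : Γ₀)
    have hk'c : k' ∈ core Γ m := by
      have h3 : ∀ φ : Γ₀ →* Equiv.Perm (Fin m), (k : Γ₀) ∈ φ.ker := Subgroup.mem_iInf.1 k.2
      refine Subgroup.mem_iInf.2 fun φ => ?_
      have h4 := h3 (φ.comp (MulEquiv.ofBijective ρ hbij).symm.toMonoidHom)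
      rw [MonoidHom.mem_ker] at h4 ⊢
      have h5 : (MulEquiv.ofBijective ρ hbij).symm (k : Γ₀) = k' := by
        rw [MulEquiv.symm_apply_eq]
        exact hk'.symm
      have h6 : (φ.comp (MulEquiv.ofBijective ρ hbij).symm.toMonoidHom) (k : Γ₀) = φ k' := by
        rw [← h5]
        rfl
      rw [← h6]
      exact h4
    refine ⟨⟨k', hk'c⟩, ?_⟩
    have h7 : (⟨ρ k', hcore k' hk'c⟩ : core Γ₀ m) = k := Subtype.ext hk'
    show z + l₀ ⟨ρ k', hcore k' hk'c⟩ ∈ C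
    rw [h7]
    exact hk

end

end Vale.Agent.P281.H399.G1
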